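import Vale.Agent.P037.MathlibUsed

/-!
Definitions for problem P037 (ordered copies of a binary matrix, distance from freeness).
-/

namespace Vale.Agent.P037

/-- The rows `r` and the columns `c` (strictly increasing maps) span an ordered copy of `H` in `A`. -/
def IsCopy {k n : ℕ} (H : Matrix (Fin k) (Fin k) Bool) (A : Matrix (Fin n) (Fin n) Bool)
    (r c : Fin k ↪o Fin n) : Prop :=
  ∀ i j, A (r i) (c j) = H i j

/-- The number of ordered copies of `H` in `A`. -/
noncomputable def numCopies {k n : ℕ} (H : Matrix (Fin k) (Fin k) Bool)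
    (A : Matrix (Fin n) (Fin n) Bool) : ℕ :=
  Nat.card {rc : (Fin k ↪o Fin n) × (Fin k ↪o Fin n) // IsCopy H A rc.1 rc.2}

/-- The number of entries in which `A` and `B` differ. -/
noncomputable def numDiff {n : ℕ} (A B : Matrix (Fin n) (Fin n) Bool) : ℕ :=
  Nat.card {rc : Fin n × Fin n // A rc.1 rc.2 ≠ B rc.1 rc.2}

/-- The distance of `A` from `H`-freeness: the minimal number of differing entries
over all `H`-free matrices `B`, divided by `n ^ 2`. -/
noncomputable def distFree {k n : ℕ} (H : Matrix (Fin k) (Fin k) Bool)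
    (A : Matrix (Fin n) (Fin n) Bool) : ℝ :=
  ((sInf {d : ℕ | ∃ B : Matrix (Fin n) (Fin n) Bool, numCopies H B = 0 ∧ numDiff A B = d} : ℕ) : ℝ)
    / (n : ℝ) ^ 2

/-- The polynomial removal property of a fixed pattern `H`. -/
def PolynomialRemoval {k : ℕ} (H : Matrix (Fin k) (Fin k) Bool) : Prop :=
  ∃ c C : ℝ, 0 < c ∧ 0 < C ∧ ∀ (n : ℕ) (ε : ℝ) (A : Matrix (Fin n) (Fin n) Bool),
    1 ≤ n → 0 < ε → ε < 1 → ε ≤ distFree H A →
      c * ε ^ C * (n : ℝ) ^ (2 * k) ≤ (numCopies H A : ℝ)

end Vale.Agent.P037
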