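import Vale.Agent.P037.MathlibUsed

namespace Vale.Agent.P037

/-- A fixed binary pattern with five rows and five columns. -/
def H5 : Matrix (Fin 5) (Fin 5) Bool :=
  !![true, true, true, false, true;
     true, true, false, true, false;
     true, false, true, false, true;
     false, true, false, false, false;
     true, false, true, false, true]

end Vale.Agent.P037
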