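import Mathlib.Algebra.Order.Ring.Star
import Mathlib.Algebra.Order.Star.Real
import Mathlib.Tactic

/-! The part of Mathlib that the development of this folder uses. -/
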